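import Vale.Agent.P119.Bdl.B4

namespace Vale.Agent.Results.P119.Expanding

open Vale.Agent.P119

theorem result : Stmt.Main (E := EuclideanSpace ℝ (Fin 3))
    (fun k => WithLp.toLp 2 (fun i => (k i : ℝ))) :=
  Bridge.main_holds

end Vale.Agent.Results.P119.Expanding
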